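import Vale.Agent.P307.R2.H541.Inst
import Vale.Agent.P307.R2.H804.Xfer

/-!
Few types: over a set of size `ν = ν ^ σ` there are at most `ν` types of `σ`-tuples.
-/

set_option linter.unusedSectionVars false

universe u

open FirstOrder Cardinal Set

namespace Vale.Agent.P307.R2.H541

open Vale.Agent.P307 Vale.Agent.P307.H304 Vale.Agent.P307.H67 Vale.Agent.P307.R2.H287
  Vale.Agent.P307.R2.H1 Vale.Agent.P307.R2.H971 Language.Structure Language.Substructure

variable {L : Language.{u, u}} {K : AEC L} {ℓ θ : Cardinal.{u}}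
  {κf α : Cardinal.{u} → Cardinal.{u}}

/-- Over `l = l ^ σ` elements of an EM model over a well-order, the types of `σ`-tuples are coded
by `l` many codes. -/
theorem exists_code_types (hK : K.IsLS ℓ) (hunb : ∀ ν, ν < κf ν ∧ K.CategoricalIn (κf ν))
    {μ σ l : Cardinal.{u}} (hℓ : ℓ ≤ μ) (hℓl : ℓ ≤ l) (hσ : ℵ₀ ≤ σ) (hl : l ^ σ = l)
    {t : Tpl K ℓ} {I : Type u} [LinearOrder I] [WellFoundedLT I] [Nonempty I] (E : EM t I)
    (hE : thr κf μ ≤ #E.N) {ι ζ : Type u} (hι : #ι ≤ σ) (hιμ : #ι ≤ μ) (hζ : #ζ ≤ l)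
    (hζμ : #ζ ≤ μ) (b : ζ → E.N) :
    ∃ (Cd : Type u) (code : (ι → E.N) → Cd), #Cd ≤ l ∧
      ∀ c c', code c = code c' → EqS L μ (Sum.elim c b) (Sum.elim c' b) := by
  classical
  have hμ : ℵ₀ ≤ μ := t.hν.trans hℓ
  have hl0 : ℵ₀ ≤ l := t.hν.trans hℓl
  choose s q hsq using exists_nat_term E
  let B : Set I := range fun p : ζ × ULift.{u} ℕ => q (b p.1) p.2
  have hN : ∀ c : Cardinal.{u}, ℵ₀ ≤ c → #(ULift.{u} ℕ) ≤ c := by
    intro c hc
    rw [mk_uLift, mk_nat, lift_aleph0]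
    exact hc
  have hprod : ∀ (c : Cardinal.{u}) (A : Type u), ℵ₀ ≤ c → #A ≤ c → #(A × ULift.{u} ℕ) ≤ c := by
    intro c A hc hA
    rw [mk_prod, lift_id, lift_id]
    exact (mul_le_mul' hA (hN c hc)).trans (mul_eq_self hc).le
  have hB : #B ≤ l := mk_range_le.trans (hprod l ζ hl0 hζ)
  have hpow : ∀ X Y : Type u, #X ≤ l → #Y ≤ σ → #(Y → X) ≤ l := by
    intro X Y hX hY
    have h1 : #(Y → X) = #X ^ #Y := by simp
    rw [h1]
    refine (power_le_power_right hX).trans ?_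
    refine (power_le_power_left (aleph0_pos.trans_le hl0).ne' hY).trans hl.le
  have h2l : ∀ Y : Type u, #Y ≤ σ → #(Set Y) ≤ l := by
    intro Y hY
    rw [mk_set]
    refine (power_le_power_right (c := #Y) ((natCast_lt_aleph0 (n := 2)).le.trans hl0)).trans ?_
    refine (power_le_power_left (aleph0_pos.trans_le hl0).ne' hY).trans hl.le
  let C : Type u := (ι → (exLang L t.Λ).Term (ULift.{u} ℕ)) ×
    ((ι × ULift.{u} ℕ → Option B × Option B) × Set ((ι × ULift.{u} ℕ) × (ι × ULift.{u} ℕ)))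
  have hιN : #(ι × ULift.{u} ℕ) ≤ σ := hprod σ ι hσ hι
  have hC : #C ≤ l := by
    have h1 : #(ι → (exLang L t.Λ).Term (ULift.{u} ℕ)) ≤ l :=
      hpow _ _ (mk_term_le hl0 (t.hx.trans hℓl) _ (hN l hl0)) hι
    have h2 : #(ι × ULift.{u} ℕ → Option B × Option B) ≤ l := by
      refine hpow _ _ ?_ hιN
      rw [mk_prod, lift_id, mk_option]
      have h2 : #B + 1 ≤ l := add_le_of_le hl0 hB (one_le_aleph0.trans hl0)
      exact (mul_le_mul' h2 h2).trans (mul_eq_self hl0).le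
    have h3 : #(Set ((ι × ULift.{u} ℕ) × (ι × ULift.{u} ℕ))) ≤ l := by
      refine h2l _ ?_
      rw [mk_prod, lift_id]
      exact (mul_le_mul' hιN hιN).trans (mul_eq_self hσ).le
    change #(_ × (_ × _)) ≤ l
    rw [mk_prod, mk_prod, lift_id, lift_id, lift_id, lift_id]
    refine (mul_le_mul' h1 (mul_le_mul' h2 h3)).trans ?_
    rw [mul_eq_self hl0, mul_eq_self hl0]
  let code : (ι → E.N) → C := fun c => (fun i => s (c i), fun p => cutCode B (q (c p.1) p.2),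
    {pp | q (c pp.1.1) pp.1.2 ≤ q (c pp.2.1) pp.2.2})
  refine ⟨C, code, hC, fun c c' hcc => ?_⟩
  have hs : ∀ i, s (c i) = s (c' i) := fun i => congrFun (congrArg Prod.fst hcc) i
  have hcut : ∀ p : ι × ULift.{u} ℕ, cutCode B (q (c p.1) p.2) = cutCode B (q (c' p.1) p.2) :=
    fun p => congrFun (congrArg (fun x : C => x.2.1) hcc) p
  have hord : ∀ p p' : ι × ULift.{u} ℕ, q (c p.1) p.2 ≤ q (c p'.1) p'.2 ↔
      q (c' p.1) p.2 ≤ q (c' p'.1) p'.2 := by
    intro p p'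
    have h1 : (p, p') ∈ (code c).2.2 ↔ (p, p') ∈ (code c').2.2 := by rw [hcc]
    exact h1
  let Q : Type u := (ζ × ULift.{u} ℕ) ⊕ (ι × ULift.{u} ℕ)
  have hQ : #Q ≤ μ := by
    change #(_ ⊕ _) ≤ μ
    rw [mk_sum, lift_id, lift_id]
    exact add_le_of_le hμ (hprod μ ζ hμ hζμ) (hprod μ ι hμ hιμ)
  let wf : (ι → E.N) → Q → I := fun c => Sum.elim (fun p => q (b p.1) p.2)
    (fun p => q (c p.1) p.2)
  have hBm : ∀ p : ζ × ULift.{u} ℕ, q (b p.1) p.2 ∈ B := fun p => ⟨p, rfl⟩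
  have hw : ∀ p p' : Q, wf c p ≤ wf c p' ↔ wf c' p ≤ wf c' p' := by
    rintro (p | p) (p' | p')
    · exact Iff.rfl
    · change q (b p.1) p.2 ≤ q (c p'.1) p'.2 ↔ q (b p.1) p.2 ≤ q (c' p'.1) p'.2
      rw [← not_lt, ← not_lt, cutCode_snd B _ ⟨_, hBm p⟩, cutCode_snd B _ ⟨_, hBm p⟩, hcut p']
    · change q (c p.1) p.2 ≤ q (b p'.1) p'.2 ↔ q (c' p.1) p.2 ≤ q (b p'.1) p'.2
      rw [cutCode_fst B _ ⟨_, hBm p'⟩, cutCode_fst B _ ⟨_, hBm p'⟩, hcut p]
    · exact hord p p'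
  have hιζ : #(ι ⊕ ζ) ≤ μ := by
    rw [mk_sum, lift_id, lift_id]
    exact add_le_of_le hμ hιμ hζμ
  let tm : ι ⊕ ζ → (exLang L t.Λ).Term Q := Sum.elim
    (fun i => (s (c i)).relabel fun k => Sum.inr (i, k))
    (fun z => (s (b z)).relabel fun k => Sum.inl (z, k))
  have h1 := eqS_pat hK hunb hℓ E E hE hE hQ (wf c) (wf c') hw hιζ tm
  have h2 : (fun i => (tm i).realize fun p => E.c (wf c p)) = Sum.elim c b := by
    funext i
    rcases i with i | z
    · change ((s (c i)).relabel fun k => (Sum.inr (i, k) : Q)).realize _ = c i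
      rw [Language.Term.realize_relabel]
      exact hsq (c i)
    · change ((s (b z)).relabel fun k => (Sum.inl (z, k) : Q)).realize _ = b z
      rw [Language.Term.realize_relabel]
      exact hsq (b z)
  have h3 : (fun i => (tm i).realize fun p => E.c (wf c' p)) = Sum.elim c' b := by
    funext i
    rcases i with i | z
    · change ((s (c i)).relabel fun k => (Sum.inr (i, k) : Q)).realize _ = c' i
      rw [Language.Term.realize_relabel, hs i]
      exact hsq (c' i)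
    · change ((s (b z)).relabel fun k => (Sum.inl (z, k) : Q)).realize _ = b z
      rw [Language.Term.realize_relabel]
      exact hsq (b z)
  rw [h2, h3] at h1
  exact h1

/-- **Few types**: the hypothesis `hFew` of `PG.exists_isol_of_tree` for the saturated member. -/
theorem pg_few {C : Type u} [L.Structure C] (h₀ : BasePt K ℓ κf α θ) (hK : K.IsLS ℓ)
    (hunb : ∀ ν, ν < κf ν ∧ K.CategoricalIn (κf ν)) (hst : Stab K ℓ α (thr κf))
    (hCm : K.mem C) (hs : Sat K θ C) (hCc : #C = Order.succ θ) {σ ν : Cardinal.{u}}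
    (hσ : ℵ₀ ≤ σ) (hℓν : ℓ ≤ ν) (hνθ : ν < θ) (hνσ : ν ^ σ = ν) {E₀ : Set C} (hE₀ : #E₀ ≤ σ)
    {z : Set C} (hz : #z ≤ ν) {J : Type u} (hJ : ν < #J) (k : J → Equiv.Perm C) :
    ∃ j j', j ≠ j' ∧ ∃ h ∈ (pg h₀ hK hunb hst hCm hs hCc).G, (∀ a ∈ z, h a = a) ∧
      ∀ e ∈ E₀, h (k j e) = k j' e := by
  classical
  have hν0 : ℵ₀ ≤ ν := hK.1.trans hℓν
  have hσν : σ ≤ ν := by
    refine (cantor σ).le.trans ?_
    rw [← hνσ]
    exact power_le_power_right (c := σ) ((natCast_lt_aleph0 (n := 2)).le.trans hν0)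
  obtain ⟨t⟩ := exists_tpl' hK hunb
  let μ : Cardinal.{u} := α ν
  have hνμ : ν ≤ μ := (hst ν hℓν).1
  have hμθ : μ < θ := h₀.al ν hνθ
  have hℓμ : ℓ ≤ μ := hℓν.trans hνμ
  let m : Cardinal.{u} := max (max θ (thr κf θ)) (thr κf μ)
  obtain ⟨hm, hcat⟩ := hunb m
  let κ : Cardinal.{u} := κf m
  have hθκ : θ ≤ κ := ((le_max_left _ _).trans (le_max_left _ _)).trans hm.le
  have hθ0 : ℵ₀ ≤ θ := aleph0_le_pt h₀ hK
  obtain ⟨E⟩ := exists_em t κ.ord.ToType
  have hEc : #E.N = κ := E.card_eq (h₀.pt.lt.le.trans hθκ) (mk_ord_toType κ)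
  have hne : Nonempty κ.ord.ToType := by
    rw [← mk_ne_zero_iff, mk_ord_toType]
    exact (aleph0_pos.trans_le (hθ0.trans hθκ)).ne'
  have hEs : Sat K θ E.N := h₀.sat hK hunb
    (((le_max_right _ _).trans (le_max_left _ _)).trans (hm.le.trans hEc.ge))
  obtain ⟨f, hf⟩ := H804.exists_embed_sat h₀ hK hCm hCc E.mem hEs (hθκ.trans hEc.ge)
  have hEμ : thr κf μ ≤ #E.N := (le_max_right _ _).trans (hm.le.trans hEc.ge)
  obtain ⟨Cd, code, hCd, hcode⟩ := exists_code_types hK hunb hℓμ hℓν hσ hνσ E hEμ (ι := E₀)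
    (ζ := z) hE₀ (hE₀.trans (hσν.trans hνμ)) hz (hz.trans hνμ) (fun a => f a)
  obtain ⟨j, j', hjj, hc⟩ : ∃ j j', j ≠ j' ∧ code (fun e : E₀ => f (k j e)) =
      code (fun e : E₀ => f (k j' e)) := by
    by_contra hcon
    push Not at hcon
    have hinj : Function.Injective fun j => code (fun e : E₀ => f (k j e)) := by
      intro j j' h
      by_contra hne
      exact hcon j j' hne h
    exact absurd ((mk_le_of_injective hinj).trans hCd) (not_le.2 hJ)
  have h1 := hcode _ _ hc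
  have hCμ : thr κf μ ≤ #C := ((h₀.pt.thr _ hμθ).le.trans (Order.le_succ θ)).trans hCc.ge
  have hsum : #(E₀ ⊕ z) ≤ ν := by
    rw [mk_sum, lift_id, lift_id]
    exact add_le_of_le hν0 (hE₀.trans hσν) hz
  have h2 : EqS L μ (Sum.elim (fun e : E₀ => k j e) fun a : z => (a : C))
      (Sum.elim (fun e : E₀ => k j' e) fun a : z => (a : C)) := by
    refine (H514.eqS_emb_iff hK hunb hℓμ (hsum.trans hνμ) f hf hCμ _ _).1 ?_
    convert h1 using 1
    · funext x
      rcases x with x | x <;> rfl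
    · funext x
      rcases x with x | x <;> rfl
  obtain ⟨g, hg, hgg⟩ := exists_mem_autG h₀ hK hunb hst hCm hs hCc hℓν hνθ hsum _ _ h2
  exact ⟨j, j', hjj, g, hg, fun a ha => hgg (Sum.inr ⟨a, ha⟩), fun e he => hgg (Sum.inl ⟨e, he⟩)⟩

end Vale.Agent.P307.R2.H541
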