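import Vale.Agent.P307.R2.H541.Iso

/-!
Isolated types are dense over a set whose small closed traces behave well: a tree of automorphisms.
-/

universe u v

open Set Cardinal Function

namespace Vale.Agent.P307.R2.H541

/-- Construction along a well-order: `P i d` depends on the values of `d` up to `i` only. -/
theorem exists_rec {W : Type u} [LinearOrder W] [WellFoundedLT W] {D : Type v} [Nonempty D]
    (P : W → (W → D) → Prop) (hloc : ∀ i d d', (∀ k ≤ i, d k = d' k) → P i d → P i d')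
    (h : ∀ i d, (∀ k < i, P k d) → ∃ x, P i (update d i x)) : ∃ d, ∀ i, P i d := by
  classical
  let ext : ∀ i : W, (∀ k, k < i → D) → W → D := fun i r k =>
    if hk : k < i then r k hk else Classical.arbitrary D
  let F : ∀ i : W, (∀ k, k < i → D) → D := fun i r =>
    if hx : ∃ x, P i (update (ext i r) i x) then hx.choose else Classical.arbitrary D
  let d : W → D := fun i => (wellFounded_lt (α := W)).fix F i
  have hd : ∀ i, d i = F i fun k _ => d k := fun i => WellFounded.fix_eq _ F i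
  have hext : ∀ i k, k < i → ext i (fun k _ => d k) k = d k := fun i k hk => dif_pos hk
  refine ⟨d, fun i => ?_⟩
  induction i using (wellFounded_lt (α := W)).induction with
  | h i ih =>
    have h1 : ∃ x, P i (update (ext i fun k _ => d k) i x) := by
      refine h i _ fun k hk => hloc k d _ (fun j hj => ?_) (ih k hk)
      exact (hext i j (hj.trans_lt hk)).symm
    have h2 : d i = h1.choose := by
      rw [hd i]
      exact dif_pos h1
    refine hloc i _ d (fun k hk => ?_) h1.choose_spec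
    rcases hk.lt_or_eq with hk | rfl
    · rw [update_of_ne hk.ne]
      exact hext i k hk
    · rw [update_self, h2]

namespace PG

variable {C : Type u} {M : PG C} {X E₀ s₀ : Set C} {ν : Cardinal.{u}}

/-- **Density of isolated types.** Let `Z` be a family of subsets of `X` of size `≤ ν` (the closed
traces) such that unions of partial elementary maps along chains in `Z` are elementary. If the type
over `X` of the conjugates over `s₀` of `E₀` is determined by the pieces of `X` of size `≤ ν`, and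
there are at most `ν` types of conjugates of `E₀` over subsets of `X` of size `≤ ν`, then some
conjugate of `E₀` over `s₀` has an isolated type over `X`. -/
theorem exists_isol_of_tree (hs₀X : s₀ ⊆ X) (hν : ℵ₀ ≤ ν) (hs₀ : #s₀ ≤ ν) (Z : Set (Set C))
    (hZX : ∀ z ∈ Z, z ⊆ X) (hZc : ∀ z ∈ Z, #z ≤ ν)
    (hZcl : ∀ A ⊆ X, #A ≤ ν → ∃ z ∈ Z, A ⊆ z)
    (hLim : ∀ (ι : Type u) [LinearOrder ι] [WellFoundedLT ι] [Nonempty ι], #ι ≤ ν →
      ∀ z : ι → Set C, Monotone z → (∀ i, z i ∈ Z) → ∀ f : C → C,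
        (∀ i, ∃ g ∈ M.G, ∀ a ∈ z i, g a = f a) → ∃ g ∈ M.G, ∀ i, ∀ a ∈ z i, g a = f a)
    (hT : ∀ g₀ ∈ M.G, (∀ b ∈ s₀, g₀ b = b) → ∀ g ∈ M.G,
      (∀ A ⊆ X, #A ≤ ν → ∃ h ∈ M.G, (∀ a ∈ A, h a = a) ∧ ∀ e ∈ E₀, h (g₀ e) = g (g₀ e)) →
      ∀ A ⊆ X, #A < M.χ → ∃ h ∈ M.G, (∀ a ∈ A, h a = a) ∧ ∀ e ∈ E₀, h (g₀ e) = g (g₀ e))
    (hFew : ∀ z ⊆ X, #z ≤ ν → ∀ J : Type u, ν < #J → ∀ k : J → Equiv.Perm C, (∀ j, k j ∈ M.G) →
      ∃ j j', j ≠ j' ∧ ∃ h ∈ M.G, (∀ a ∈ z, h a = a) ∧ ∀ e ∈ E₀, h (k j e) = k j' e) :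
    ∃ g₀ ∈ M.G, (∀ b ∈ s₀, g₀ b = b) ∧ ∃ z ∈ Z, s₀ ⊆ z ∧ M.Isol z X (g₀ '' E₀) := by
  classical
  by_contra hneg
  push Not at hneg
  -- one splitting
  have step : ∀ g₀ ∈ M.G, (∀ b ∈ s₀, g₀ b = b) → ∀ z ∈ Z, s₀ ⊆ z →
      ∃ g ∈ M.G, (∀ a ∈ z, g a = a) ∧ ∃ A ⊆ X, #A ≤ ν ∧
        ¬ ∃ h ∈ M.G, (∀ a ∈ A, h a = a) ∧ ∀ e ∈ E₀, h (g₀ e) = g (g₀ e) := by
    intro g₀ hg₀ hg₀s z hz hsz
    by_contra hcon
    push Not at hcon
    refine hneg g₀ hg₀ hg₀s z hz hsz ?_
    intro g hg hgz A hA hAc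
    obtain ⟨h, hh, h1, h2⟩ := hT g₀ hg₀ hg₀s g hg (fun A hA hAν => hcon g hg hgz A hA hAν) A hA hAc
    refine ⟨h, hh, h1, ?_⟩
    rintro _ ⟨e, he, rfl⟩
    exact h2 e he
  -- the height
  have hne : ({c : Cardinal.{u} | ν < 2 ^ c} : Set Cardinal.{u}).Nonempty := ⟨ν, cantor ν⟩
  let ρ : Cardinal.{u} := sInf {c | ν < 2 ^ c}
  have hρ : ν < 2 ^ ρ := csInf_mem hne
  have hρν : ρ ≤ ν := csInf_le' (cantor ν)
  have hlt : ∀ c < ρ, 2 ^ c ≤ ν := fun c hc => not_lt.1 fun h => notMem_of_lt_csInf' hc h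
  let W : Type u := ρ.ord.ToType
  have hW : #W = ρ := mk_ord_toType ρ
  have hWi : ∀ i : W, #(Iio i) < ρ := fun i => by
    have h := mk_Iio_lt (α := ρ.ord.ToType) i (by simp)
    rwa [mk_ord_toType] at h
  let D : Type u := Set C × ((W → Bool) → Equiv.Perm C)
  have : Nonempty D := ⟨(∅, fun _ => 1)⟩
  let P : W → (W → D) → Prop := fun i d => (d i).1 ∈ Z ∧ s₀ ⊆ (d i).1 ∧
    (∀ k < i, (d k).1 ⊆ (d i).1) ∧ (∀ η, (d i).2 η ∈ M.G) ∧ (∀ η, ∀ b ∈ s₀, (d i).2 η b = b) ∧
    (∀ k < i, ∀ η, ∀ z ∈ (d k).1, (d i).2 η z = (d k).2 η z) ∧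
    (∀ η η' : W → Bool, (∀ k ≤ i, η k = η' k) → (d i).2 η = (d i).2 η') ∧
    (∀ η η' : W → Bool, (∀ k < i, η k = η' k) → η i = false → η' i = true →
      ¬ ∃ h ∈ M.G, (∀ z ∈ (d i).1, h z = z) ∧ ∀ e ∈ E₀,
        h (((d i).2 η)⁻¹ e) = ((d i).2 η')⁻¹ e)
  obtain ⟨d, hd⟩ := exists_rec P (by
    rintro i d d' hdd ⟨h1, h2, h3, h4, h5, h6, h7, h8⟩
    have hi : d i = d' i := hdd i le_rfl
    have hk : ∀ k < i, d k = d' k := fun k hk => hdd k hk.le
    refine ⟨hi ▸ h1, hi ▸ h2, fun k hki => ?_, fun η => hi ▸ h4 η, fun η => hi ▸ h5 η,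
      fun k hki η z hz => ?_, fun η η' hη => ?_, fun η η' hη h9 h10 => ?_⟩
    · rw [← hi, ← hk k hki]
      exact h3 k hki
    · rw [← hi, ← hk k hki]
      rw [← hk k hki] at hz
      exact h6 k hki η z hz
    · rw [← hi]
      exact h7 η η' hη
    · rw [← hi]
      exact h8 η η' hη h9 h10) (by
    intro i d hP
    -- extension of branches
    let ex : (Iio i → Bool) → W → Bool := fun ζ k => if hk : k < i then ζ ⟨k, hk⟩ else false
    have hex : ∀ (ζ : Iio i → Bool) (k : W) (hk : k < i), ex ζ k = ζ ⟨k, hk⟩ := fun ζ k hk =>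
      dif_pos hk
    have hF : ∀ ζ : Iio i → Bool, ∃ g ∈ M.G, (∀ b ∈ s₀, g b = b) ∧
        ∀ k < i, ∀ a ∈ (d k).1, g a = (d k).2 (ex ζ) a := by
      intro ζ
      by_cases hi : Nonempty (Iio i)
      · have hmono : Monotone fun k : Iio i => (d k).1 := by
          intro k k' hkk
          rcases hkk.lt_or_eq with h | h
          · exact (hP k' k'.2).2.2.1 k h
          · rw [h]
        let f : C → C := fun a => if ha : ∃ k : Iio i, a ∈ (d k).1 then
          (d ha.choose).2 (ex ζ) a else a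
        have hf : ∀ k : Iio i, ∀ a ∈ (d k).1, f a = (d k).2 (ex ζ) a := by
          intro k a ha
          have hex' : ∃ k : Iio i, a ∈ (d k).1 := ⟨k, ha⟩
          have h1 : f a = (d hex'.choose).2 (ex ζ) a := dif_pos hex'
          rw [h1]
          have hc := hex'.choose_spec
          rcases lt_trichotomy (hex'.choose : Iio i) k with h | h | h
          · exact ((hP k k.2).2.2.2.2.2.1 _ h _ a hc).symm
          · rw [h]
          · exact (hP _ hex'.choose.2).2.2.2.2.2.1 k h _ a ha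
        obtain ⟨g, hg, hgf⟩ := hLim (Iio i) ((hWi i).le.trans hρν) (fun k : Iio i => (d k).1) hmono
          (fun k => (hP k k.2).1) f fun k => ⟨(d k).2 (ex ζ), (hP k k.2).2.2.2.1 _,
            fun a ha => (hf k a ha).symm⟩
        refine ⟨g, hg, fun b hb => ?_, fun k hk a ha => ?_⟩
        · obtain ⟨k⟩ := hi
          have hbk : b ∈ (d k).1 := (hP k k.2).2.1 hb
          rw [hgf k b hbk, hf k b hbk]
          exact (hP k k.2).2.2.2.2.1 _ b hb
        · rw [hgf ⟨k, hk⟩ a ha, hf ⟨k, hk⟩ a ha]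
      · exact ⟨1, M.G.one_mem, fun b _ => rfl, fun k hk => absurd ⟨⟨k, hk⟩⟩ hi⟩
    choose F hFG hFs hFc using hF
    -- the closed set on which the branches are fixed
    have hU : #(s₀ ∪ ⋃ k : Iio i, (d k).1 : Set C) ≤ ν := by
      refine (mk_union_le _ _).trans ((add_le_add hs₀ ?_).trans (add_eq_self hν).le)
      refine (mk_iUnion_le _).trans ((mul_le_mul' ((hWi i).le.trans hρν)
        (ciSup_le' fun k : Iio i => hZc _ (hP k k.2).1)).trans (mul_eq_self hν).le)
    obtain ⟨z, hz, hzU⟩ := hZcl _ (union_subset hs₀X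
      (iUnion_subset fun k : Iio i => hZX _ (hP k k.2).1)) hU
    have hsz : s₀ ⊆ z := subset_union_left.trans hzU
    have hkz : ∀ k < i, (d k).1 ⊆ z := fun k hk =>
      ((subset_iUnion (fun k : Iio i => (d k).1) ⟨k, hk⟩).trans subset_union_right).trans hzU
    have hst := fun ζ : Iio i → Bool => step (F ζ)⁻¹ (M.G.inv_mem (hFG ζ))
      (fun b hb => fix_inv (hFs ζ b hb)) z hz hsz
    choose g hgG hgz A hAX hAν hgA using hst
    have hU' : #(z ∪ ⋃ ζ : Iio i → Bool, A ζ : Set C) ≤ ν := by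
      refine (mk_union_le _ _).trans ((add_le_add (hZc z hz) ?_).trans (add_eq_self hν).le)
      have hc : #(Iio i → Bool) ≤ ν := by
        have h1 : #(Iio i → Bool) = 2 ^ #(Iio i) := by simp
        rw [h1]
        exact hlt _ (hWi i)
      exact (mk_iUnion_le _).trans ((mul_le_mul' hc (ciSup_le' hAν)).trans (mul_eq_self hν).le)
    obtain ⟨z', hz', hzU'⟩ := hZcl _ (union_subset (hZX z hz) (iUnion_subset hAX)) hU'
    have hzz' : z ⊆ z' := subset_union_left.trans hzU'
    have hAz' : ∀ ζ, A ζ ⊆ z' := fun ζ =>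
      ((subset_iUnion A ζ).trans subset_union_right).trans hzU'
    let re : (W → Bool) → Iio i → Bool := fun η k => η k
    let Gi : (W → Bool) → Equiv.Perm C := fun η =>
      if η i then F (re η) * (g (re η))⁻¹ else F (re η)
    have hGz : ∀ η, ∀ a ∈ z, Gi η a = F (re η) a := by
      intro η a ha
      by_cases hη : η i = true
      · have h1 : Gi η = F (re η) * (g (re η))⁻¹ := if_pos hη
        rw [h1, Equiv.Perm.mul_apply, fix_inv (hgz _ a ha)]
      · have h1 : Gi η = F (re η) := if_neg hη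
        rw [h1]
    have hex2 : ∀ (η : W → Bool) (k : W), k < i → (d k).2 (ex (re η)) = (d k).2 η := by
      intro η k hk
      refine (hP k hk).2.2.2.2.2.2.1 _ _ fun j hj => ?_
      exact hex _ j (hj.trans_lt hk)
    refine ⟨(z', Gi), ?_⟩
    have hui : update d i ((z', Gi) : D) i = (z', Gi) := update_self i _ d
    have huk : ∀ k < i, update d i ((z', Gi) : D) k = d k := fun k hk => update_of_ne hk.ne _ d
    refine ⟨?_, ?_, ?_, ?_, ?_, ?_, ?_, ?_⟩
    · rw [hui]
      exact hz'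
    · rw [hui]
      exact hsz.trans hzz'
    · intro k hk
      rw [hui, huk k hk]
      exact (hkz k hk).trans hzz'
    · intro η
      rw [hui]
      change Gi η ∈ M.G
      by_cases hη : η i = true
      · have h1 : Gi η = F (re η) * (g (re η))⁻¹ := if_pos hη
        rw [h1]
        exact M.G.mul_mem (hFG _) (M.G.inv_mem (hgG _))
      · have h1 : Gi η = F (re η) := if_neg hη
        rw [h1]
        exact hFG _
    · intro η b hb
      rw [hui]
      change Gi η b = b
      rw [hGz η b (hsz hb), hFs _ b hb]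
    · intro k hk η a ha
      rw [huk k hk] at ha ⊢
      rw [hui]
      change Gi η a = _
      rw [hGz η a (hkz k hk ha), hFc _ k hk a ha, hex2 η k hk]
    · intro η η' hη
      rw [hui]
      have h1 : re η = re η' := funext fun k => hη k k.2.le
      change Gi η = Gi η'
      have h2 : η i = η' i := hη i le_rfl
      change (if η i then F (re η) * (g (re η))⁻¹ else F (re η)) =
        (if η' i then F (re η') * (g (re η'))⁻¹ else F (re η'))
      rw [h1, h2]
    · intro η η' hη hηi hηi'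
      rw [hui]
      have h1 : re η = re η' := funext fun k => hη k k.2
      have h2 : Gi η = F (re η) := if_neg (by rw [hηi]; exact Bool.false_ne_true)
      have h3 : Gi η' = F (re η) * (g (re η))⁻¹ := by
        rw [h1]
        exact if_pos hηi'
      rintro ⟨h, hh, hhz, hhe⟩
      refine hgA (re η) ⟨h, hh, fun a ha => hhz a (hAz' _ ha), fun e he => ?_⟩
      have h4 := hhe e he
      change h ((Gi η)⁻¹ e) = (Gi η')⁻¹ e at h4
      rw [h2, h3, mul_inv_rev, inv_inv, Equiv.Perm.mul_apply] at h4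
      exact h4)
  -- the branches
  have hB : ∀ η : W → Bool, ∃ g ∈ M.G, ∀ i, ∀ a ∈ (d i).1, g a = (d i).2 η a := by
    intro η
    by_cases hi : Nonempty W
    · have hmono : Monotone fun k : W => (d k).1 := by
        intro k k' hkk
        rcases hkk.lt_or_eq with h | h
        · exact (hd k').2.2.1 k h
        · rw [h]
      let f : C → C := fun a => if ha : ∃ k : W, a ∈ (d k).1 then (d ha.choose).2 η a else a
      have hf : ∀ k : W, ∀ a ∈ (d k).1, f a = (d k).2 η a := by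
        intro k a ha
        have hex' : ∃ k : W, a ∈ (d k).1 := ⟨k, ha⟩
        have h1 : f a = (d hex'.choose).2 η a := dif_pos hex'
        rw [h1]
        have hc := hex'.choose_spec
        rcases lt_trichotomy (hex'.choose : W) k with h | h | h
        · exact ((hd k).2.2.2.2.2.1 _ h _ a hc).symm
        · rw [h]
        · exact (hd hex'.choose).2.2.2.2.2.1 k h _ a ha
      obtain ⟨g, hg, hgf⟩ := hLim W (hW.le.trans hρν) (fun k : W => (d k).1) hmono
        (fun k => (hd k).1) f fun k => ⟨(d k).2 η, (hd k).2.2.2.1 _, fun a ha => (hf k a ha).symm⟩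
      exact ⟨g, hg, fun k a ha => by rw [hgf k a ha, hf k a ha]⟩
    · exact ⟨1, M.G.one_mem, fun k => absurd ⟨k⟩ hi⟩
  choose B hBG hBd using hB
  have hU : #(⋃ k : W, (d k).1 : Set C) ≤ ν :=
    (mk_iUnion_le _).trans ((mul_le_mul' (hW.le.trans hρν)
      (ciSup_le' fun k : W => hZc _ (hd k).1)).trans (mul_eq_self hν).le)
  have hJ : ν < #(W → Bool) := by
    have h1 : #(W → Bool) = 2 ^ #W := by simp
    rw [h1, hW]
    exact hρ
  obtain ⟨η, η', hηη, h, hh, hhz, hhe⟩ := hFew _ (iUnion_subset fun k : W => hZX _ (hd k).1) hU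
    (W → Bool) hJ (fun η => (B η)⁻¹) fun η => M.G.inv_mem (hBG η)
  -- the first difference
  have key : ∀ (η η' : W → Bool) (i : W), (∀ k < i, η k = η' k) → η i = false → η' i = true →
      ∀ h ∈ M.G, (∀ a ∈ ⋃ k : W, (d k).1, h a = a) →
      ¬ ∀ e ∈ E₀, h ((B η)⁻¹ e) = (B η')⁻¹ e := by
    intro η η' i hη hi hi' h hh hhz hhe
    have h1 := (hd i).2.2.2.2.2.2.2 η η' hη hi hi'
    have hG := (hd i).2.2.2.1
    refine h1 ⟨((d i).2 η')⁻¹ * B η' * h * ((B η)⁻¹ * (d i).2 η), M.G.mul_mem (M.G.mul_mem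
      (M.G.mul_mem (M.G.inv_mem (hG η')) (hBG η')) hh) (M.G.mul_mem (M.G.inv_mem (hBG η)) (hG η)),
      fun a ha => ?_, fun e he => ?_⟩
    · simp only [Equiv.Perm.mul_apply]
      rw [← hBd η i a ha, inv_ap, hhz a (mem_iUnion.2 ⟨i, ha⟩), hBd η' i a ha, inv_ap]
    · simp only [Equiv.Perm.mul_apply]
      rw [ap_inv, hhe e he, ap_inv]
  obtain ⟨i, hi1, hi2⟩ : ∃ i : W, η i ≠ η' i ∧ ∀ k < i, η k = η' k := by
    have hex : ∃ i, η i ≠ η' i := Function.ne_iff.1 hηη
    refine ⟨(wellFounded_lt (α := W)).min {i | η i ≠ η' i} hex,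
      (wellFounded_lt (α := W)).min_mem _ hex, fun k hk => ?_⟩
    by_contra hcon
    exact (wellFounded_lt (α := W)).not_lt_min {i | η i ≠ η' i} hcon hk
  rcases Bool.eq_false_or_eq_true (η i) with h0 | h0
  · have h0' : η' i = false := by
      rcases Bool.eq_false_or_eq_true (η' i) with h1 | h1
      · exact absurd (h0.trans h1.symm) hi1
      · exact h1
    refine key η' η i (fun k hk => (hi2 k hk).symm) h0' h0 h⁻¹ (M.G.inv_mem hh)
      (fun a ha => fix_inv (hhz a ha)) fun e he => ?_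
    rw [← hhe e he, inv_ap]
  · have h0' : η' i = true := by
      rcases Bool.eq_false_or_eq_true (η' i) with h1 | h1
      · exact h1
      · exact absurd (h0.trans h1.symm) hi1
    exact key η η' i hi2 h0 h0' h hh hhz hhe

end PG

end Vale.Agent.P307.R2.H541
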