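import Vale.Agent.P307.R2.H229.Tree

/-!
Isolated types are dense over a set whose closed traces behave well: a tree of partial maps. The
nodes of the tree carry maps of the closed traces which need not extend to elements of the group.
-/

universe u v

open Set Cardinal Function

namespace Vale.Agent.P307.R2.H541

namespace PG

variable {C : Type u} {M : PG C} {X E₀ s₀ : Set C} {ν : Cardinal.{u}}

/-- Maps of closed traces: a relation between sets and functions. -/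
structure EMap (M : PG C) (ν : Cardinal.{u}) (E : Set C → (C → C) → Prop) : Prop where
  mono : ∀ {D D' : Set C} {f : C → C}, E D f → D' ⊆ D → E D' f
  congr : ∀ {D : Set C} {f f' : C → C}, E D f → (∀ a ∈ D, f' a = f a) → E D f'
  smul : ∀ {D : Set C} {f : C → C} {g : Equiv.Perm C}, g ∈ M.G → E D f →
    E (g '' D) fun a => f (g⁻¹ a)
  aut : ∀ {D : Set C} {f : C → C}, #D ≤ ν → E D f → ∃ g ∈ M.G, ∀ a ∈ D, g a = f a

/-- The data at a level of the tree: a closed trace, the set of witnesses, the maps and the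
conjugates. -/
structure TNode (C : Type u) (W : Type u) where
  z : Set C
  A : Set C
  F : (W → Bool) → C → C
  K : (W → Bool) → Equiv.Perm C

/-- The properties of a level. -/
structure TNode.Ok (M : PG C) (E : Set C → (C → C) → Prop) (E₀ s₀ : Set C) (ν : Cardinal.{u})
    (Z : Set (Set C)) {W : Type u} [LinearOrder W] (i : W) (x : TNode C W) : Prop where
  mem : x.z ∈ Z
  base : s₀ ⊆ x.z
  sub : x.A ⊆ x.z
  card : #x.A ≤ ν
  K_mem : ∀ η, x.K η ∈ M.G
  emap : ∀ η, E (x.z ∪ x.K η '' E₀) (x.F η)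
  val : ∀ η, ∀ e ∈ E₀, x.F η (x.K η e) = e
  fix : ∀ η, ∀ b ∈ s₀, x.F η b = b
  loc : ∀ η η' : W → Bool, (∀ k ≤ i, η k = η' k) → x.F η = x.F η' ∧ x.K η = x.K η'
  split : ∀ η η' : W → Bool, (∀ k < i, η k = η' k) → η i = false → η' i = true →
    ¬ ∃ h ∈ M.G, (∀ z ∈ x.A, h z = z) ∧ ∀ e ∈ E₀, h (x.K η e) = x.K η' e

/-- The relation between two levels. -/
structure TNode.Rel {W : Type u} (y x : TNode C W) : Prop where
  sub : y.z ⊆ x.z
  eq : ∀ η, ∀ a ∈ y.z, x.F η a = y.F η a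

/-- **Density of isolated types**, with maps of the closed traces which need not extend to elements
of the group. -/
theorem exists_isol_of_treeE {E : Set C → (C → C) → Prop} (hE : M.EMap ν E) (hν : ℵ₀ ≤ ν)
    (hs₀ : #s₀ ≤ ν) (hE₀ : #E₀ ≤ ν) (Z : Set (Set C)) (hZX : ∀ z ∈ Z, z ⊆ X)
    (hid : ∀ z ∈ Z, E (z ∪ E₀) id)
    (hs₀Z : ∃ z ∈ Z, s₀ ⊆ z)
    (hZcl : ∀ z ∈ Z, ∀ A ⊆ X, #A ≤ ν → ∃ z' ∈ Z, z ⊆ z' ∧ A ⊆ z')
    (hZU : ∀ (ι : Type u) [LinearOrder ι] [WellFoundedLT ι] [Nonempty ι], #ι ≤ ν →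
      ∀ z : ι → Set C, Monotone z → (∀ i, z i ∈ Z) → (⋃ i, z i) ∈ Z)
    (hLim : ∀ (ι : Type u) [LinearOrder ι] [WellFoundedLT ι] [Nonempty ι], #ι ≤ ν →
      ∀ z : ι → Set C, Monotone z → (∀ i, z i ∈ Z) → ∀ f : C → C,
        (∀ i, E (z i) f) → E (⋃ i, z i) f)
    (hExt : ∀ z ∈ Z, ∀ z' ∈ Z, z ⊆ z' → ∀ k ∈ M.G, ∀ f : C → C, E (z ∪ k '' E₀) f →
      ∃ f' : C → C, (∀ a ∈ z ∪ k '' E₀, f' a = f a) ∧ E (z' ∪ k '' E₀) f')
    (hBack : ∀ z ∈ Z, ∀ f : C → C, E z f → ∃ k ∈ M.G, ∃ f' : C → C, (∀ a ∈ z, f' a = f a) ∧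
      E (z ∪ k '' E₀) f' ∧ ∀ e ∈ E₀, f' (k e) = e)
    (hT : ∀ g₀ ∈ M.G, (∀ b ∈ s₀, g₀ b = b) → ∀ g ∈ M.G,
      (∀ A ⊆ X, #A ≤ ν → ∃ h ∈ M.G, (∀ a ∈ A, h a = a) ∧ ∀ e ∈ E₀, h (g₀ e) = g (g₀ e)) →
      ∀ A ⊆ X, #A < M.χ → ∃ h ∈ M.G, (∀ a ∈ A, h a = a) ∧ ∀ e ∈ E₀, h (g₀ e) = g (g₀ e))
    (hFew : ∀ z ⊆ X, #z ≤ ν → ∀ J : Type u, ν < #J → ∀ k : J → Equiv.Perm C, (∀ j, k j ∈ M.G) →
      ∃ j j', j ≠ j' ∧ ∃ h ∈ M.G, (∀ a ∈ z, h a = a) ∧ ∀ e ∈ E₀, h (k j e) = k j' e) :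
    ∃ g₀ ∈ M.G, (∀ b ∈ s₀, g₀ b = b) ∧ ∃ z ∈ Z, s₀ ⊆ z ∧ M.Isol z X (g₀ '' E₀) := by
  classical
  by_contra hneg
  push Not at hneg
  -- one splitting
  have step : ∀ z ∈ Z, s₀ ⊆ z → ∀ k ∈ M.G, ∀ f : C → C, E (z ∪ k '' E₀) f →
      (∀ b ∈ s₀, f b = b) → (∀ e ∈ E₀, f (k e) = e) →
      ∃ g ∈ M.G, (∀ a ∈ z, g a = a) ∧ ∃ A ⊆ X, #A ≤ ν ∧
        ¬ ∃ h ∈ M.G, (∀ a ∈ A, h a = a) ∧ ∀ e ∈ E₀, h (k e) = g (k e) := by
    intro z hz hsz k hk f hf hfs hfe
    by_contra hcon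
    push Not at hcon
    -- the conjugate over `s₀`
    obtain ⟨u, hu, huD⟩ := hE.aut (D := s₀ ∪ k '' E₀) ((mk_union_le _ _).trans
      ((add_le_add hs₀ (mk_image_le.trans hE₀)).trans (add_eq_self hν).le))
      (hE.mono hf (union_subset_union_left _ hsz))
    have hus : ∀ b ∈ s₀, u⁻¹ b = b := fun b hb => fix_inv (by rw [huD b (Or.inl hb), hfs b hb])
    have hue : ∀ e ∈ E₀, u⁻¹ e = k e := by
      intro e he
      have h1 : u (k e) = e := by rw [huD _ (Or.inr (mem_image_of_mem k he)), hfe e he]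
      rw [Equiv.Perm.inv_eq_iff_eq]
      exact h1.symm
    refine hneg u⁻¹ (M.G.inv_mem hu) hus z hz hsz ?_
    intro g hg hgz A hA hAc
    obtain ⟨h, hh, h1, h2⟩ := hT u⁻¹ (M.G.inv_mem hu) hus g hg (fun A hA hAν => by
      obtain ⟨h, hh, h1, h2⟩ := hcon g hg hgz A hA hAν
      exact ⟨h, hh, h1, fun e he => by rw [hue e he]; exact h2 e he⟩) A hA hAc
    refine ⟨h, hh, h1, ?_⟩
    rintro _ ⟨e, he, rfl⟩
    exact h2 e he
  -- the height
  have hne : ({c : Cardinal.{u} | ν < 2 ^ c} : Set Cardinal.{u}).Nonempty := ⟨ν, cantor ν⟩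
  let ρ : Cardinal.{u} := sInf {c | ν < 2 ^ c}
  have hρ : ν < 2 ^ ρ := csInf_mem hne
  have hρν : ρ ≤ ν := csInf_le' (cantor ν)
  have hlt : ∀ c < ρ, 2 ^ c ≤ ν := fun c hc => not_lt.1 fun h => notMem_of_lt_csInf' hc h
  let W : Type u := ρ.ord.ToType
  have hW : #W = ρ := mk_ord_toType ρ
  have hWi : ∀ i : W, #(Iio i) < ρ := fun i => by
    have h := mk_Iio_lt (α := ρ.ord.ToType) i (by simp)
    rwa [mk_ord_toType] at h
  have : Nonempty (TNode C W) := ⟨⟨∅, ∅, fun _ => id, fun _ => 1⟩⟩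
  let P : W → (W → TNode C W) → Prop := fun i d =>
    TNode.Ok M E E₀ s₀ ν Z i (d i) ∧ ∀ k < i, TNode.Rel (d k) (d i)
  -- gluing the maps of a branch
  have glue : ∀ (ι : Type u) [LinearOrder ι] [WellFoundedLT ι] (x : ι → TNode C W) (η : W → Bool),
      (∀ i, (x i).z ∈ Z ∧ E (x i).z ((x i).F η) ∧ ∀ b ∈ s₀, b ∈ (x i).z ∧
        (x i).F η b = b) → (∀ i j, i < j → (x i).z ⊆ (x j).z ∧ ∀ a ∈ (x i).z,
        (x j).F η a = (x i).F η a) → #ι ≤ ν →
      ∃ z ∈ Z, s₀ ⊆ z ∧ (∀ i, (x i).z ⊆ z) ∧ ∃ f : C → C, E z f ∧ (∀ b ∈ s₀, f b = b) ∧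
        (∀ i, ∀ a ∈ (x i).z, f a = (x i).F η a) ∧ (Nonempty ι → z = ⋃ i, (x i).z) := by
    intro ι _ _ x η h1 h2 hι
    by_cases hne : Nonempty ι
    · have hmono : Monotone fun k : ι => (x k).z := by
        intro k k' hkk
        rcases hkk.lt_or_eq with h | h
        · exact (h2 k k' h).1
        · rw [h]
      let f : C → C := fun a => if ha : ∃ k : ι, a ∈ (x k).z then (x ha.choose).F η a else a
      have hf : ∀ k : ι, ∀ a ∈ (x k).z, f a = (x k).F η a := by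
        intro k a ha
        have hex' : ∃ k : ι, a ∈ (x k).z := ⟨k, ha⟩
        have h3 : f a = (x hex'.choose).F η a := dif_pos hex'
        rw [h3]
        have hc := hex'.choose_spec
        rcases lt_trichotomy (hex'.choose : ι) k with h | h | h
        · exact ((h2 _ _ h).2 a hc).symm
        · rw [h]
        · exact (h2 _ _ h).2 a ha
      obtain ⟨k₀⟩ := id hne
      have hs₀z : s₀ ⊆ (x k₀).z := fun b hb => ((h1 k₀).2.2 b hb).1
      refine ⟨⋃ k, (x k).z, hZU ι hι _ hmono fun k => (h1 k).1,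
        hs₀z.trans (subset_iUnion (fun k => (x k).z) k₀), fun i => subset_iUnion (fun k => (x k).z) i,
        f, hLim ι hι _ hmono (fun k => (h1 k).1) f fun k => hE.congr (h1 k).2.1 (hf k),
        fun b hb => ?_, hf, fun _ => rfl⟩
      rw [hf k₀ b (hs₀z hb)]
      exact ((h1 k₀).2.2 b hb).2
    · obtain ⟨z, hz, hsz⟩ := hs₀Z
      exact ⟨z, hz, hsz, fun i => absurd ⟨i⟩ hne, id, hE.mono (hid z hz) subset_union_left,
        fun b _ => rfl, fun i => absurd ⟨i⟩ hne, fun h => absurd h hne⟩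
  obtain ⟨d, hd⟩ := exists_rec P (by
    rintro i d d' hdd ⟨h1, h2⟩
    have hi : d i = d' i := hdd i le_rfl
    refine ⟨hi ▸ h1, fun k hk => ?_⟩
    rw [← hi, ← hdd k hk.le]
    exact h2 k hk) (by
    intro i d hP
    -- extension of branches
    let ex : (Iio i → Bool) → W → Bool := fun ζ k => if hk : k < i then ζ ⟨k, hk⟩ else false
    have hex : ∀ (ζ : Iio i → Bool) (k : W) (hk : k < i), ex ζ k = ζ ⟨k, hk⟩ := fun ζ k hk =>
      dif_pos hk
    have hiν : #(Iio i) ≤ ν := (hWi i).le.trans hρν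
    -- the closed trace below the new one; it depends on the levels only
    obtain ⟨zu, hzu, hszu, hkzu, hzuu⟩ : ∃ zu ∈ Z, s₀ ⊆ zu ∧ (∀ k < i, (d k).z ⊆ zu) ∧
        (∀ η : W → Bool, ∃ f : C → C, E zu f ∧ (∀ b ∈ s₀, f b = b) ∧
          ∀ k < i, ∀ a ∈ (d k).z, f a = (d k).F η a) := by
      have h1 := fun η : W → Bool => glue (Iio i) (fun k => d k) η (fun k =>
        ⟨(hP k k.2).1.mem, hE.mono ((hP k k.2).1.emap η) subset_union_left, fun b hb =>
          ⟨(hP k k.2).1.base hb, (hP k k.2).1.fix η b hb⟩⟩) (fun k k' hkk =>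
          ⟨((hP k' k'.2).2 k hkk).sub, ((hP k' k'.2).2 k hkk).eq η⟩) hiν
      by_cases hi : Nonempty (Iio i)
      · obtain ⟨z, hz, hsz, hkz, -, -, -, -, hzU⟩ := h1 fun _ => false
        refine ⟨z, hz, hsz, fun k hk => hkz ⟨k, hk⟩, fun η => ?_⟩
        obtain ⟨z', -, -, -, f, hf1, hf2, hf3, hzU'⟩ := h1 η
        rw [hzU' hi, ← hzU hi] at hf1
        exact ⟨f, hf1, hf2, fun k hk => hf3 ⟨k, hk⟩⟩
      · obtain ⟨z, hz, hsz⟩ := hs₀Z
        exact ⟨z, hz, hsz, fun k hk => absurd ⟨⟨k, hk⟩⟩ hi, fun η => ⟨id,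
          hE.mono (hid z hz) subset_union_left, fun b _ => rfl, fun k hk => absurd ⟨⟨k, hk⟩⟩ hi⟩⟩
    have hF := fun ζ : Iio i → Bool => hzuu (ex ζ)
    choose F hFE hFs hFc using hF
    have hB := fun ζ : Iio i → Bool => hBack zu hzu (F ζ) (hFE ζ)
    choose k hkG f' hf'z hf'E hf'e using hB
    have hf's : ∀ ζ, ∀ b ∈ s₀, f' ζ b = b := fun ζ b hb => by rw [hf'z ζ b (hszu hb), hFs ζ b hb]
    have hst := fun ζ : Iio i → Bool => step zu hzu hszu (k ζ) (hkG ζ) (f' ζ) (hf'E ζ) (hf's ζ)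
      (hf'e ζ)
    choose g hgG hgz A hAX hAν hgA using hst
    have hU' : #(⋃ ζ : Iio i → Bool, A ζ : Set C) ≤ ν := by
      have hc : #(Iio i → Bool) ≤ ν := by
        have h1 : #(Iio i → Bool) = 2 ^ #(Iio i) := by simp
        rw [h1]
        exact hlt _ (hWi i)
      exact (mk_iUnion_le _).trans ((mul_le_mul' hc (ciSup_le' hAν)).trans (mul_eq_self hν).le)
    obtain ⟨z', hz', hzz', hAz'⟩ := hZcl zu hzu (⋃ ζ : Iio i → Bool, A ζ) (iUnion_subset hAX) hU'
    -- the two children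
    have h0 := fun ζ : Iio i → Bool => hExt zu hzu z' hz' hzz' (k ζ) (hkG ζ) (f' ζ) (hf'E ζ)
    choose f0 hf0 hf0E using h0
    have hgim : ∀ ζ : Iio i → Bool, g ζ '' (zu ∪ k ζ '' E₀) = zu ∪ (g ζ * k ζ) '' E₀ := by
      intro ζ
      rw [image_union]
      congr 1
      · ext a
        constructor
        · rintro ⟨b, hb, rfl⟩
          rw [hgz ζ b hb]
          exact hb
        · intro ha
          exact ⟨a, ha, hgz ζ a ha⟩
      · rw [image_image]
        rfl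
    have h1 := fun ζ : Iio i → Bool => hExt zu hzu z' hz' hzz' (g ζ * k ζ)
      (M.G.mul_mem (hgG ζ) (hkG ζ)) (fun a => f' ζ ((g ζ)⁻¹ a)) (by
        have h2 := hE.smul (hgG ζ) (hf'E ζ)
        rwa [hgim ζ] at h2)
    choose f1 hf1 hf1E using h1
    let re : (W → Bool) → Iio i → Bool := fun η k => η k
    let Fi : (W → Bool) → C → C := fun η => if η i then f1 (re η) else f0 (re η)
    let Ki : (W → Bool) → Equiv.Perm C := fun η => if η i then g (re η) * k (re η) else k (re η)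
    let x : TNode C W := ⟨z', ⋃ ζ : Iio i → Bool, A ζ, Fi, Ki⟩
    have hex2 : ∀ (η : W → Bool) (k : W), k < i → (d k).F (ex (re η)) = (d k).F η := by
      intro η k hk
      refine ((hP k hk).1.loc _ _ fun j hj => ?_).1
      exact hex _ j (hj.trans_lt hk)
    have hfz : ∀ η, ∀ a ∈ zu, Fi η a = f' (re η) a := by
      intro η a ha
      by_cases hη : η i = true
      · have h2 : Fi η = f1 (re η) := if_pos hη
        rw [h2, hf1 _ a (Or.inl ha), fix_inv (hgz _ a ha)]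
      · have h2 : Fi η = f0 (re η) := if_neg hη
        rw [h2, hf0 _ a (Or.inl ha)]
    refine ⟨x, ?_, fun j hj => ?_⟩
    · rw [update_self]
      refine ⟨hz', hszu.trans hzz', hAz', hU', fun η => ?_, fun η => ?_, fun η => ?_, fun η => ?_,
        fun η η' hη => ?_, fun η η' hη hηi hηi' => ?_⟩
      · change Ki η ∈ M.G
        by_cases hη : η i = true
        · have h2 : Ki η = g (re η) * k (re η) := if_pos hη
          rw [h2]
          exact M.G.mul_mem (hgG _) (hkG _)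
        · have h2 : Ki η = k (re η) := if_neg hη
          rw [h2]
          exact hkG _
      · change E (z' ∪ Ki η '' E₀) (Fi η)
        by_cases hη : η i = true
        · have h2 : Ki η = g (re η) * k (re η) := if_pos hη
          have h3 : Fi η = f1 (re η) := if_pos hη
          rw [h2, h3]
          exact hf1E _
        · have h2 : Ki η = k (re η) := if_neg hη
          have h3 : Fi η = f0 (re η) := if_neg hη
          rw [h2, h3]
          exact hf0E _
      · intro e he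
        change Fi η (Ki η e) = e
        by_cases hη : η i = true
        · have h2 : Ki η = g (re η) * k (re η) := if_pos hη
          have h3 : Fi η = f1 (re η) := if_pos hη
          rw [h2, h3, hf1 _ _ (Or.inr (mem_image_of_mem _ he)), Equiv.Perm.mul_apply, inv_ap,
            hf'e _ e he]
        · have h2 : Ki η = k (re η) := if_neg hη
          have h3 : Fi η = f0 (re η) := if_neg hη
          rw [h2, h3, hf0 _ _ (Or.inr (mem_image_of_mem _ he)), hf'e _ e he]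
      · intro b hb
        change Fi η b = b
        rw [hfz η b (hszu hb), hf's _ b hb]
      · have h1 : re η = re η' := funext fun k => hη k k.2.le
        have h2 : η i = η' i := hη i le_rfl
        constructor
        · change (if η i then f1 (re η) else f0 (re η)) = if η' i then f1 (re η') else f0 (re η')
          rw [h1, h2]
        · change (if η i then g (re η) * k (re η) else k (re η)) =
            if η' i then g (re η') * k (re η') else k (re η')
          rw [h1, h2]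
      · have h1 : re η = re η' := funext fun k => hη k k.2
        have h2 : Ki η = k (re η) := if_neg (by rw [hηi]; exact Bool.false_ne_true)
        have h3 : Ki η' = g (re η) * k (re η) := by
          rw [h1]
          exact if_pos hηi'
        rintro ⟨h, hh, hhz, hhe⟩
        refine hgA (re η) ⟨h, hh, fun a ha => hhz a (mem_iUnion.2 ⟨_, ha⟩), fun e he => ?_⟩
        have h4 := hhe e he
        change h (Ki η e) = Ki η' e at h4
        rw [h2, h3, Equiv.Perm.mul_apply] at h4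
        exact h4
    · rw [update_self, update_of_ne hj.ne]
      refine ⟨(hkzu j hj).trans hzz', fun η a ha => ?_⟩
      change Fi η a = _
      rw [hfz η a (hkzu j hj ha), hf'z _ a (hkzu j hj ha), hFc _ j hj a ha, hex2 η j hj])
  -- the branches
  have hB : ∀ η : W → Bool, ∃ k ∈ M.G, ∀ i, ∃ h ∈ M.G, (∀ a ∈ (d i).A, h a = a) ∧
      ∀ e ∈ E₀, h (k e) = (d i).K η e := by
    intro η
    obtain ⟨z, hz, hsz, hkz, f, hf1, hf2, hf3, -⟩ := glue W d η (fun k =>
        ⟨(hd k).1.mem, hE.mono ((hd k).1.emap η) subset_union_left, fun b hb =>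
          ⟨(hd k).1.base hb, (hd k).1.fix η b hb⟩⟩) (fun k k' hkk =>
          ⟨((hd k').2 k hkk).sub, ((hd k').2 k hkk).eq η⟩) (hW.le.trans hρν)
    obtain ⟨k, hk, f', hf'z, hf'E, hf'e⟩ := hBack z hz f hf1
    refine ⟨k, hk, fun i => ?_⟩
    have hAz : (d i).A ⊆ z := (hd i).1.sub.trans (hkz i)
    have hcard : ∀ k' : Equiv.Perm C, #((d i).A ∪ k' '' E₀ : Set C) ≤ ν := fun k' =>
      (mk_union_le _ _).trans ((add_le_add (hd i).1.card (mk_image_le.trans hE₀)).trans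
        (add_eq_self hν).le)
    obtain ⟨u, hu, huD⟩ := hE.aut (hcard k) (hE.mono hf'E (union_subset_union_left _ hAz))
    obtain ⟨v, hv, hvD⟩ := hE.aut (hcard ((d i).K η)) (hE.mono ((hd i).1.emap η)
      (union_subset_union_left _ (hd i).1.sub))
    refine ⟨v⁻¹ * u, M.G.mul_mem (M.G.inv_mem hv) hu, fun a ha => ?_, fun e he => ?_⟩
    · rw [Equiv.Perm.mul_apply, Equiv.Perm.inv_eq_iff_eq, huD a (Or.inl ha),
        hvD a (Or.inl ha), hf'z a (hAz ha), hf3 i a ((hd i).1.sub ha)]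
    · rw [Equiv.Perm.mul_apply, Equiv.Perm.inv_eq_iff_eq, huD _ (Or.inr (mem_image_of_mem k he)),
        hvD _ (Or.inr (mem_image_of_mem _ he)), hf'e e he, (hd i).1.val η e he]
  choose B hBG hBd using hB
  have hU : #(⋃ k : W, (d k).A : Set C) ≤ ν :=
    (mk_iUnion_le _).trans ((mul_le_mul' (hW.le.trans hρν)
      (ciSup_le' fun k : W => (hd k).1.card)).trans (mul_eq_self hν).le)
  have hJ : ν < #(W → Bool) := by
    have h1 : #(W → Bool) = 2 ^ #W := by simp
    rw [h1, hW]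
    exact hρ
  obtain ⟨η, η', hηη, h, hh, hhz, hhe⟩ := hFew _ (iUnion_subset fun k : W =>
    (hd k).1.sub.trans (hZX _ (hd k).1.mem)) hU (W → Bool) hJ B hBG
  -- the first difference
  have key : ∀ (η η' : W → Bool) (i : W), (∀ k < i, η k = η' k) → η i = false → η' i = true →
      ∀ h ∈ M.G, (∀ a ∈ ⋃ k : W, (d k).A, h a = a) →
      ¬ ∀ e ∈ E₀, h (B η e) = B η' e := by
    intro η η' i hη hi hi' h hh hhz hhe
    obtain ⟨u, hu, hu1, hu2⟩ := hBd η i
    obtain ⟨v, hv, hv1, hv2⟩ := hBd η' i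
    refine (hd i).1.split η η' hη hi hi' ⟨v * h * u⁻¹, M.G.mul_mem (M.G.mul_mem hv hh)
      (M.G.inv_mem hu), fun a ha => ?_, fun e he => ?_⟩
    · simp only [Equiv.Perm.mul_apply]
      rw [fix_inv (hu1 a ha), hhz a (mem_iUnion.2 ⟨i, ha⟩), hv1 a ha]
    · simp only [Equiv.Perm.mul_apply]
      rw [← hu2 e he, inv_ap, hhe e he, hv2 e he]
  obtain ⟨i, hi1, hi2⟩ : ∃ i : W, η i ≠ η' i ∧ ∀ k < i, η k = η' k := by
    have hex : ∃ i, η i ≠ η' i := Function.ne_iff.1 hηη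
    refine ⟨(wellFounded_lt (α := W)).min {i | η i ≠ η' i} hex,
      (wellFounded_lt (α := W)).min_mem _ hex, fun k hk => ?_⟩
    by_contra hcon
    exact (wellFounded_lt (α := W)).not_lt_min {i | η i ≠ η' i} hcon hk
  rcases Bool.eq_false_or_eq_true (η i) with h0 | h0
  · have h0' : η' i = false := by
      rcases Bool.eq_false_or_eq_true (η' i) with h1 | h1
      · exact absurd (h0.trans h1.symm) hi1
      · exact h1
    refine key η' η i (fun k hk => (hi2 k hk).symm) h0' h0 h⁻¹ (M.G.inv_mem hh)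
      (fun a ha => fix_inv (hhz a ha)) fun e he => ?_
    rw [← hhe e he, inv_ap]
  · have h0' : η' i = true := by
      rcases Bool.eq_false_or_eq_true (η' i) with h1 | h1
      · exact h1
      · exact absurd (h0.trans h1.symm) hi1
    exact key η η' i hi2 h0 h0' h hh hhz hhe

end PG

end Vale.Agent.P307.R2.H541
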